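import Vale.Agent.N240.Main

open Vale.Agent.P240 Vale.Agent.P240.K Vale.Agent.N240
open Vale.Agent.P240.R2.H487.N Vale.Agent.P240.R2.H490 Vale.Agent.P240.R2.H314

universe u v

/-- **Quillen's conjecture: Mathieu groups, and components given by local conditions.** Let `G` be a
finite group, `p` a prime and `𝕜` a field; `HQ 𝕜 p G` means that the reduced homology of `𝒜ₚ(G)` with
coefficients in `𝕜` is not zero. `Loc p r L`: the group `L` is of characteristic `r` type, or satisfies
the `r`-local condition `LocChar p r`, or has a proper subgroup of index a power of `r`. `New 𝕜 p L`: `L`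
is one of the five Mathieu groups, or has a subgroup of prime index, or satisfies `SelfCent p`, or
`Loc p r`, where `r ≠ p` is the characteristic of `𝕜`. `NewL 𝕜 p L`: `New 𝕜 p L`, or `Inner p L`, or
`Loc p l L`, where `l = 2` for odd `p` and `l = 3` for `p = 2`.
(1) Let `O_p(G) = 1`, and suppose that some nonabelian composition factor of `G` of order divisible by
`p` satisfies `NewL 𝕜 p`, and each one satisfies `NewL 𝕜 p` or `FacA p` (alternating groups, groups of
Lie type, …). Then the geometric realization of `𝒜ₚ(G)` is not contractible, and `HQ(G)`.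
(2) It is enough that the components of `C_G(N) / (N ∩ C_G(N))` are as in (1), where `N` is the largest
normal `p'`-subgroup of `G`.
(3) Elimination. Let `D` be a conjugation-stable set of subgroups of `G` that commute with each other;
suppose that each `L ∈ D` is a nonabelian simple group of order divisible by `p` that satisfies
`New 𝕜 p`. Then `HQ(C_G(D))` implies `HQ(G)`.
(4) No simple component of a minimal counterexample satisfies `New 𝕜 p`. -/
theorem Vale.Agent.Results.P240.A0CharType.result (G : Type u) [Group G] [Finite G] (p : ℕ)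
    (hp : p.Prime) (𝕜 : Type v) [Field 𝕜] :
    (OpTrivial p G → (Factors p G fun L _ => FacA p L ∨ NewL 𝕜 p L) →
      (¬ Factors p G fun L _ => ¬ NewL 𝕜 p L) →
      ¬ ContractibleSpace (Realization (Ap p G)) ∧ HQ 𝕜 p G) ∧
    (OpTrivial p G → ∀ (N : Subgroup G) [N.Normal],
      (RedComp p N fun L _ => FacA p L ∨ NewL 𝕜 p L) → (¬ RedComp p N fun L _ => ¬ NewL 𝕜 p L) →
        ¬ ContractibleSpace (Realization (Ap p G)) ∧ HQ 𝕜 p G) ∧
    (∀ D : Set (Subgroup G), Family D → (∀ L ∈ D, SimpleDiv p L ∧ New 𝕜 p L) →
      HQ 𝕜 p (CenFam D) → HQ 𝕜 p G) ∧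
    (MinCounter 𝕜 p G → ∀ L ∈ Q.Comp G, ¬ New 𝕜 p L) :=
  ⟨fun hO h _ => new_factor hp hO h, fun hO N _ h _ => new_comp hp hO N h,
    fun _ hD h hC => new_family hp hD (fun L hL => (h L hL).imp id Or.inr) hC, new_minimal hp⟩
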